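import Vale.Agent.Lib.P322.Xor

/-!
# P322: Boolean functions that are odd in one coordinate satisfy the Courtade–Kumar inequality
-/

namespace Vale.Agent.Lib.P322

open Finset Real

theorem mutualInfo_equiv {Ω Ω' : Type} [Fintype Ω] [Fintype Ω'] (e : Ω ≃ Ω')
    (J' : Bool → Ω' → ℝ) : mutualInfo (fun b y => J' b (e y)) = mutualInfo J' := by
  unfold mutualInfo
  refine Finset.sum_congr rfl (fun b _ => ?_)
  rw [Equiv.sum_comp e (fun y' => J' b y')]
  exact Equiv.sum_comp e
    (fun y => J' b y * Real.logb 2 (J' b y / ((∑ y', J' b y') * (∑ b', J' b' y))))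

theorem joint_equiv {Ω Ω' : Type} [Fintype Ω] [Fintype Ω'] (e : Ω ≃ Ω') (W : Ω → Ω → ℝ)
    (W' : Ω' → Ω' → ℝ) (g : Ω → Bool) (g' : Ω' → Bool) (hW : ∀ x y, W x y = W' (e x) (e y))
    (hg : ∀ x, g x = g' (e x)) (b : Bool) (y : Ω) :
    joint W g b y = joint W' g' b (e y) := by
  unfold joint
  rw [← Equiv.sum_comp e (fun x' => if g' x' = b then W' x' (e y) / (Fintype.card Ω' : ℝ) else 0)]
  refine Finset.sum_congr rfl (fun x _ => ?_)
  rw [hg x, hW x y, Fintype.card_congr e]

/-- **The Courtade–Kumar inequality for Boolean functions that are odd in one coordinate.** -/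
theorem ck_coord {ι : Type} [Fintype ι] [DecidableEq ι] {ε : ℝ} (h0 : 0 ≤ ε) (h1 : ε ≤ 1)
    (i : ι) (g : (ι → Bool) → Bool) (hg : ∀ x, g (Function.update x i (!x i)) = !g x) :
    mutualInfo (joint (bscN ε) g) ≤ 1 - h2 ε := by
  set e := Equiv.funSplitAt i Bool with he
  set f : ({j // j ≠ i} → Bool) → Bool := fun x' => g (e.symm (false, x')) with hf
  have hx0 : ∀ x : ι → Bool, e.symm (false, (e x).2) = Function.update x i false := by
    intro x
    rw [Equiv.symm_apply_eq]
    refine Prod.ext ?_ ?_
    · simp [he, Equiv.funSplitAt_apply]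
    · funext j
      simp [he, Equiv.funSplitAt_apply, Function.update_of_ne j.2]
  have hgf : ∀ x, g x = xorFun f (e x) := by
    intro x
    have h1' : (e x).1 = x i := by simp [he, Equiv.funSplitAt_apply]
    unfold xorFun
    rw [hf]
    simp only
    rw [hx0 x, h1']
    cases hxi : x i
    · have : Function.update x i false = x := by rw [← hxi]; exact Function.update_eq_self i x
      rw [this]; simp
    · have h2' := hg (Function.update x i false)
      simp only [Function.update_self, Bool.not_false, Function.update_idem] at h2'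
      have : Function.update x i true = x := by rw [← hxi]; exact Function.update_eq_self i x
      rw [this] at h2'
      rw [h2']; simp
  have hW : ∀ x y : ι → Bool, bscN ε x y = chan ε (e x) (e y) := by
    intro x y
    unfold bscN chan
    simp only [he, Equiv.funSplitAt_apply]
    exact Fintype.prod_eq_mul_prod_subtype_ne (fun j => bsc ε (x j) (y j)) i
  have hJ : joint (bscN ε) g = fun b y => joint (chan ε) (xorFun f) b (e y) := by
    funext b y
    exact joint_equiv e (bscN ε) (chan ε) g (xorFun f) hW hgf b y
  rw [hJ, mutualInfo_equiv e]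
  exact ck_xor h0 h1 f

end Vale.Agent.Lib.P322
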