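import Mathlib

/-!
# P322 (Courtade–Kumar conjecture): definitions

Bits are `Bool`s.  `bsc ε z w` is the probability that the binary symmetric channel with
crossover probability `ε` outputs `w` on input `z`; `bscN ε x y` is the memoryless product
channel on a cube `ι → Bool`.  `joint W g` is the joint probability mass function of
`(g X, Y)` when `X` is uniform on the finite set `Ω` and `Y` is the output of the channel `W`
on input `X`.  `mutualInfo J` is the mutual information, in bits, of a probability mass function
`J` on `Bool × Ω`, and `h2` is the binary entropy function in bits.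
-/

namespace Vale.Agent.Lib.P322

/-- `bsc ε z w`: the probability that a binary symmetric channel with crossover probability `ε`
outputs the bit `w` on input `z`. -/
noncomputable def bsc (ε : ℝ) (z w : Bool) : ℝ := if z = w then 1 - ε else ε

/-- `bscN ε x y`: the probability that the memoryless binary symmetric channel (independent uses
of `bsc ε` on the coordinates) outputs `y` on input `x`. -/
noncomputable def bscN {ι : Type} [Fintype ι] (ε : ℝ) (x y : ι → Bool) : ℝ :=
  ∏ i, bsc ε (x i) (y i)

/-- `joint W g b y`: the probability that `g X = b` and `Y = y`, where `X` is uniform on `Ω` and,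
given `X = x`, `Y = y` has probability `W x y`. -/
noncomputable def joint {Ω : Type} [Fintype Ω] (W : Ω → Ω → ℝ) (g : Ω → Bool) (b : Bool) (y : Ω) :
    ℝ :=
  ∑ x, if g x = b then W x y / (Fintype.card Ω : ℝ) else 0

/-- `mutualInfo J`: the mutual information in bits of the two coordinates of a random pair with
probability mass function `J` on `Bool × Ω`: the sum of `J b y * log₂ (J b y / (J_1 b * J_2 y))`
with `J_1`, `J_2` the two marginals (terms with `J b y = 0` vanish). -/
noncomputable def mutualInfo {Ω : Type} [Fintype Ω] (J : Bool → Ω → ℝ) : ℝ :=
  ∑ b, ∑ y, J b y * Real.logb 2 (J b y / ((∑ y', J b y') * (∑ b', J b' y)))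

/-- `h2 p = -p log₂ p - (1-p) log₂ (1-p)`, the binary entropy function in bits. -/
noncomputable def h2 (p : ℝ) : ℝ := -(p * Real.logb 2 p) - (1 - p) * Real.logb 2 (1 - p)

end Vale.Agent.Lib.P322
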