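import Vale.Agent.Lib.P322.Xor

/-!
# P322: Boolean functions whose sensitive edges contain a perfect matching of the cube

Let `g` be a Boolean function on the cube `ι → Bool` and let `s` assign to every input `x` a
coordinate `s x` such that, for `x'` the input `x` with the bit `s x` flipped, `s x' = s x` and
`g x' ≠ g x`.  (The pairs `{x, x'}` form a perfect matching of the cube graph, and `g` changes
along every edge of the matching.)  Then `g` satisfies the Courtade–Kumar inequality
`I(g(X); Y) ≤ 1 - h₂(ε)` for every `ε ∈ [0, 1]`.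

The proof: `x ↦ x'` is an involution exchanging `{g = true}` and `{g = false}`, and the channel
probabilities of `x` and `x'` differ by the factor `ε / (1 - ε)` or its inverse.  Hence the
conditional probability of `g X = true` given `Y = y` lies between `min ε (1 - ε)` and
`max ε (1 - ε)` for every `y`, and the conditional entropy of `g X` given `Y` is at least `h₂(ε)`.
-/

namespace Vale.Agent.Lib.P322

open Finset Real

namespace SM

variable {ι : Type} [Fintype ι] [DecidableEq ι]

theorem bsc_symm_sm (ε : ℝ) (z w : Bool) : bsc ε z w = bsc ε w z := by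
  unfold bsc; cases z <;> cases w <;> simp

omit [DecidableEq ι] in
theorem bscN_symm_sm (ε : ℝ) (x y : ι → Bool) : bscN ε x y = bscN ε y x := by
  unfold bscN
  exact Finset.prod_congr rfl (fun i _ => bsc_symm_sm ε _ _)

theorem bscN_sum_right (ε : ℝ) (x : ι → Bool) : ∑ y, bscN ε x y = 1 := by
  rw [← bscN_sum ε x]
  exact Finset.sum_congr rfl (fun y _ => bscN_symm_sm ε x y)

theorem bsc_flip_le {ε : ℝ} (h0 : 0 ≤ ε) (h1 : ε ≤ 1) (z w : Bool) :
    min ε (1 - ε) * bsc ε (!z) w ≤ max ε (1 - ε) * bsc ε z w := by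
  have h1' : 0 ≤ 1 - ε := by linarith
  have hA : min ε (1 - ε) * ε ≤ max ε (1 - ε) * (1 - ε) :=
    calc min ε (1 - ε) * ε ≤ (1 - ε) * max ε (1 - ε) :=
          mul_le_mul (min_le_right _ _) (le_max_left _ _) h0 h1'
      _ = max ε (1 - ε) * (1 - ε) := mul_comm _ _
  have hB : min ε (1 - ε) * (1 - ε) ≤ max ε (1 - ε) * ε :=
    calc min ε (1 - ε) * (1 - ε) ≤ ε * max ε (1 - ε) :=
          mul_le_mul (min_le_left _ _) (le_max_right _ _) h1' h0
      _ = max ε (1 - ε) * ε := mul_comm _ _
  have e1 : bsc ε true true = 1 - ε := by unfold bsc; simp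
  have e2 : bsc ε false false = 1 - ε := by unfold bsc; simp
  have e3 : bsc ε true false = ε := by unfold bsc; simp
  have e4 : bsc ε false true = ε := by unfold bsc; simp
  cases z <;> cases w
  · show min ε (1 - ε) * bsc ε true false ≤ max ε (1 - ε) * bsc ε false false
    rw [e3, e2]; exact hA
  · show min ε (1 - ε) * bsc ε true true ≤ max ε (1 - ε) * bsc ε false true
    rw [e1, e4]; exact hB
  · show min ε (1 - ε) * bsc ε false false ≤ max ε (1 - ε) * bsc ε true false
    rw [e2, e3]; exact hB
  · show min ε (1 - ε) * bsc ε false true ≤ max ε (1 - ε) * bsc ε true true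
    rw [e4, e1]; exact hA

theorem bscN_flip_le {ε : ℝ} (h0 : 0 ≤ ε) (h1 : ε ≤ 1) (x y : ι → Bool) (i : ι) :
    min ε (1 - ε) * bscN ε (Function.update x i (!x i)) y ≤ max ε (1 - ε) * bscN ε x y := by
  unfold bscN
  have e1 : ∏ j, bsc ε (x j) (y j)
      = bsc ε (x i) (y i) * ∏ j ∈ univ.erase i, bsc ε (x j) (y j) :=
    (Finset.mul_prod_erase univ (fun j => bsc ε (x j) (y j)) (Finset.mem_univ i)).symm
  have e2 : ∏ j, bsc ε (Function.update x i (!x i) j) (y j)
      = bsc ε (!x i) (y i) * ∏ j ∈ univ.erase i, bsc ε (x j) (y j) := by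
    rw [← Finset.mul_prod_erase univ (fun j => bsc ε (Function.update x i (!x i) j) (y j))
      (Finset.mem_univ i)]
    congr 1
    · rw [Function.update_self]
    · refine Finset.prod_congr rfl (fun j hj => ?_)
      rw [Function.update_of_ne (Finset.ne_of_mem_erase hj)]
  rw [e1, e2, ← mul_assoc, ← mul_assoc]
  exact mul_le_mul_of_nonneg_right (bsc_flip_le h0 h1 (x i) (y i))
    (Finset.prod_nonneg (fun j _ => bsc_nonneg h0 h1 _ _))

/-- `cq ε g b y`: the sum of the channel probabilities `bscN ε x y` over the inputs `x` with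
`g x = b`, that is, the conditional probability of `g X = b` given `Y = y`. -/
noncomputable def cq (ε : ℝ) (g : (ι → Bool) → Bool) (b : Bool) (y : ι → Bool) : ℝ :=
  ∑ x, if g x = b then bscN ε x y else 0

theorem joint_eq_cq (ε : ℝ) (g : (ι → Bool) → Bool) (b : Bool) (y : ι → Bool) :
    joint (bscN ε) g b y = cq ε g b y / (Fintype.card (ι → Bool) : ℝ) := by
  unfold joint cq
  rw [Finset.sum_div]
  refine Finset.sum_congr rfl (fun x _ => ?_)
  split_ifs
  · rfl
  · rw [zero_div]

theorem cq_add (ε : ℝ) (g : (ι → Bool) → Bool) (y : ι → Bool) :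
    cq ε g true y + cq ε g false y = 1 := by
  unfold cq
  rw [← Finset.sum_add_distrib, ← bscN_sum ε y]
  refine Finset.sum_congr rfl (fun x _ => ?_)
  cases g x <;> simp

section matching

variable (g : (ι → Bool) → Bool) (s : (ι → Bool) → ι)
  (hs : ∀ x, s (Function.update x (s x) (!x (s x))) = s x)
  (hg : ∀ x, g (Function.update x (s x) (!x (s x))) = !g x)

omit [Fintype ι] in
include hs in
theorem flip_invol :
    Function.Involutive (fun x : ι → Bool => Function.update x (s x) (!x (s x))) := by
  intro x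
  show Function.update (Function.update x (s x) (!x (s x)))
      (s (Function.update x (s x) (!x (s x))))
      (!(Function.update x (s x) (!x (s x))) (s (Function.update x (s x) (!x (s x))))) = x
  rw [hs x, Function.update_self, Function.update_idem, Bool.not_not, Function.update_eq_self]

include hs hg in
theorem sum_flip (F : (ι → Bool) → (ι → Bool) → ℝ) (b : Bool) :
    ∑ x, (if g x = !b then F x x else 0)
      = ∑ x, if g x = b then
          F (Function.update x (s x) (!x (s x))) (Function.update x (s x) (!x (s x))) else 0 := by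
  rw [← Equiv.sum_comp (Function.Involutive.toPerm _ (flip_invol s hs))]
  refine Finset.sum_congr rfl (fun x _ => ?_)
  show (if g (Function.update x (s x) (!x (s x))) = !b then
      F (Function.update x (s x) (!x (s x))) (Function.update x (s x) (!x (s x))) else 0) = _
  rw [hg x]
  have hiff : (!g x) = !b ↔ g x = b := by cases g x <;> cases b <;> simp
  by_cases h : g x = b
  · rw [if_pos (hiff.mpr h), if_pos h]
  · rw [if_neg (fun h' => h (hiff.mp h')), if_neg h]

include hs hg in
theorem cq_le {ε : ℝ} (h0 : 0 ≤ ε) (h1 : ε ≤ 1) (b : Bool) (y : ι → Bool) :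
    min ε (1 - ε) * cq ε g (!b) y ≤ max ε (1 - ε) * cq ε g b y := by
  have e := sum_flip g s hs hg (fun x _ => bscN ε x y) b
  unfold cq
  rw [e, Finset.mul_sum, Finset.mul_sum]
  refine Finset.sum_le_sum (fun x _ => ?_)
  split_ifs
  · exact bscN_flip_le h0 h1 x y (s x)
  · rw [mul_zero, mul_zero]

include hs hg in
theorem cq_ge_min {ε : ℝ} (h0 : 0 ≤ ε) (h1 : ε ≤ 1) (y : ι → Bool) :
    min ε (1 - ε) ≤ cq ε g true y := by
  have ha := cq_add ε g y
  have h := cq_le g s hs hg h0 h1 true y
  have hmM : min ε (1 - ε) + max ε (1 - ε) = 1 := by rw [min_add_max]; ring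
  have hf : cq ε g (!true) y = 1 - cq ε g true y := by
    show cq ε g false y = 1 - cq ε g true y
    linarith
  rw [hf] at h
  have e : min ε (1 - ε) * cq ε g true y + max ε (1 - ε) * cq ε g true y = cq ε g true y := by
    rw [← add_mul, hmM, one_mul]
  linarith

include hs hg in
theorem cq_le_max {ε : ℝ} (h0 : 0 ≤ ε) (h1 : ε ≤ 1) (y : ι → Bool) :
    cq ε g true y ≤ max ε (1 - ε) := by
  have ha := cq_add ε g y
  have h := cq_le g s hs hg h0 h1 false y
  have hmM : min ε (1 - ε) + max ε (1 - ε) = 1 := by rw [min_add_max]; ring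
  have hf : cq ε g false y = 1 - cq ε g true y := by linarith
  have h' : min ε (1 - ε) * cq ε g true y ≤ max ε (1 - ε) * cq ε g false y := h
  rw [hf] at h'
  have e : min ε (1 - ε) * cq ε g true y + max ε (1 - ε) * cq ε g true y = cq ε g true y := by
    rw [← add_mul, hmM, one_mul]
  linarith

theorem cq_sum (ε : ℝ) (b : Bool) :
    ∑ y, cq ε g b y = ∑ x : ι → Bool, if g x = b then (1 : ℝ) else 0 := by
  unfold cq
  rw [Finset.sum_comm]
  refine Finset.sum_congr rfl (fun x _ => ?_)
  split_ifs
  · exact bscN_sum_right ε x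
  · exact Finset.sum_const_zero

include hs hg in
theorem cq_sum_half (ε : ℝ) (b : Bool) :
    ∑ y, cq ε g b y = (Fintype.card (ι → Bool) : ℝ) / 2 := by
  have e1 : ∑ x : ι → Bool, (if g x = !b then (1 : ℝ) else 0)
      = ∑ x : ι → Bool, if g x = b then (1 : ℝ) else 0 :=
    sum_flip g s hs hg (fun _ _ => (1 : ℝ)) b
  have e2 : (∑ x : ι → Bool, if g x = b then (1 : ℝ) else 0)
      + ∑ x : ι → Bool, (if g x = !b then (1 : ℝ) else 0) = (Fintype.card (ι → Bool) : ℝ) := by
    rw [← Finset.sum_add_distrib]
    have : ∀ x : ι → Bool, (if g x = b then (1 : ℝ) else 0) + (if g x = !b then (1 : ℝ) else 0)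
        = 1 := by
      intro x
      cases g x <;> cases b <;> simp
    rw [Finset.sum_congr rfl (fun x _ => this x), Finset.sum_const, Finset.card_univ,
      nsmul_eq_mul, mul_one]
  rw [cq_sum]
  linarith

include hs hg in
theorem row_sumM (ε : ℝ) (b : Bool) : ∑ y, joint (bscN ε) g b y = 1 / 2 := by
  have hC : (Fintype.card (ι → Bool) : ℝ) ≠ 0 := by
    have : 0 < Fintype.card (ι → Bool) := Fintype.card_pos
    exact_mod_cast this.ne'
  simp only [joint_eq_cq]
  rw [← Finset.sum_div, cq_sum_half g s hs hg]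
  field_simp

theorem col_sumM (ε : ℝ) (y : ι → Bool) :
    ∑ b, joint (bscN ε) g b y = 1 / (Fintype.card (ι → Bool) : ℝ) := by
  rw [Fintype.sum_bool, joint_eq_cq, joint_eq_cq, ← add_div, cq_add]

include hs hg in
theorem mi_eqM (ε : ℝ) :
    mutualInfo (joint (bscN ε) g)
      = ∑ y : ι → Bool, (1 - h2 (cq ε g true y)) / (Fintype.card (ι → Bool) : ℝ) := by
  have hC : (Fintype.card (ι → Bool) : ℝ) ≠ 0 := by
    have : 0 < Fintype.card (ι → Bool) := Fintype.card_pos
    exact_mod_cast this.ne'
  unfold mutualInfo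
  simp only [row_sumM g s hs hg, col_sumM]
  simp only [joint_eq_cq]
  rw [Fintype.sum_bool, ← Finset.sum_add_distrib]
  refine Finset.sum_congr rfl (fun y _ => ?_)
  have hft : cq ε g false y = 1 - cq ε g true y := by
    have h := cq_add ε g y
    linarith
  rw [hft]
  have e1 : ∀ q : ℝ, q / (Fintype.card (ι → Bool) : ℝ)
      / (1 / 2 * (1 / (Fintype.card (ι → Bool) : ℝ))) = 2 * q := by
    intro q; field_simp
  rw [e1, e1]
  have hL := logb_two_mul (cq ε g true y)
  generalize Real.logb 2 (2 * cq ε g true y) = A at hL ⊢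
  generalize Real.logb 2 (2 * (1 - cq ε g true y)) = B at hL ⊢
  generalize cq ε g true y = Q at hL ⊢
  rw [← hL]
  field_simp

include hs hg in
/-- **The Courtade–Kumar inequality for Boolean functions whose sensitive edges contain a
perfect matching of the cube.** -/
theorem ck_matching {ε : ℝ} (h0 : 0 ≤ ε) (h1 : ε ≤ 1) :
    mutualInfo (joint (bscN ε) g) ≤ 1 - h2 ε := by
  rw [mi_eqM g s hs hg]
  have hC : (0 : ℝ) < (Fintype.card (ι → Bool) : ℝ) := by
    have : 0 < Fintype.card (ι → Bool) := Fintype.card_pos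
    exact_mod_cast this
  calc ∑ y : ι → Bool, (1 - h2 (cq ε g true y)) / (Fintype.card (ι → Bool) : ℝ)
      ≤ ∑ _y : ι → Bool, (1 - h2 ε) / (Fintype.card (ι → Bool) : ℝ) := by
        refine Finset.sum_le_sum (fun y _ => ?_)
        have := h2_mono h0 h1 (cq_ge_min g s hs hg h0 h1 y) (cq_le_max g s hs hg h0 h1 y)
        exact div_le_div_of_nonneg_right (by linarith) hC.le
    _ = 1 - h2 ε := by
        rw [Finset.sum_const, Finset.card_univ, nsmul_eq_mul]
        field_simp

end matching

/-- **Selector functions.** On the cube indexed by the disjoint union of `ι` and `κ`, write an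
input as `(u, z)` with `u` its restriction to `ι` and `z` its restriction to `κ`.  For arbitrary
`sel : (ι → Bool) → κ` and `f : (ι → Bool) → Bool`, the function
`g (u, z) = z (sel u) XOR f u` satisfies the Courtade–Kumar inequality. -/
theorem ck_selector {κ : Type} [Fintype κ] [DecidableEq κ] {ε : ℝ} (h0 : 0 ≤ ε) (h1 : ε ≤ 1)
    (sel : (ι → Bool) → κ) (f : (ι → Bool) → Bool) :
    mutualInfo (joint (bscN ε) (fun x : ι ⊕ κ → Bool =>
      xor (x (Sum.inr (sel (fun i => x (Sum.inl i))))) (f (fun i => x (Sum.inl i))))) ≤ 1 - h2 ε := by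
  have hu : ∀ (x : ι ⊕ κ → Bool) (k : κ) (v : Bool),
      (fun i => Function.update x (Sum.inr k) v (Sum.inl i)) = fun i => x (Sum.inl i) := by
    intro x k v
    funext i
    exact Function.update_of_ne Sum.inl_ne_inr _ _
  refine ck_matching (fun x : ι ⊕ κ → Bool =>
      xor (x (Sum.inr (sel (fun i => x (Sum.inl i))))) (f (fun i => x (Sum.inl i))))
    (fun x => Sum.inr (sel (fun i => x (Sum.inl i)))) ?_ ?_ h0 h1
  · intro x
    show Sum.inr (sel (fun i => Function.update x (Sum.inr (sel (fun i => x (Sum.inl i))))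
      (!x (Sum.inr (sel (fun i => x (Sum.inl i))))) (Sum.inl i))) = _
    rw [hu]
  · intro x
    show xor (Function.update x (Sum.inr (sel (fun i => x (Sum.inl i))))
        (!x (Sum.inr (sel (fun i => x (Sum.inl i)))))
        (Sum.inr (sel (fun i => Function.update x (Sum.inr (sel (fun i => x (Sum.inl i))))
          (!x (Sum.inr (sel (fun i => x (Sum.inl i))))) (Sum.inl i)))))
      (f (fun i => Function.update x (Sum.inr (sel (fun i => x (Sum.inl i))))
          (!x (Sum.inr (sel (fun i => x (Sum.inl i))))) (Sum.inl i)))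
      = !xor (x (Sum.inr (sel (fun i => x (Sum.inl i))))) (f (fun i => x (Sum.inl i)))
    rw [hu, Function.update_self]
    cases x (Sum.inr (sel (fun i => x (Sum.inl i)))) <;> cases f (fun i => x (Sum.inl i)) <;> rfl

end SM

end Vale.Agent.Lib.P322
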