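import Vale.Agent.Lib.P322.XorLemma

/-!
# P322: mixtures of balanced sections

Let `g` be a Boolean function of `(x, x') ∈ {0,1}^ι × {0,1}^κ` all of whose sections
`g x : {0,1}^κ → {0,1}` are balanced.  Then the Courtade–Kumar functional of `g` is at most the
average over `x` of the functionals of the sections.  Consequently, if for every `x` the section
`g x` is odd in some coordinate `k x` (which may depend on `x`), then `g` satisfies the
Courtade–Kumar inequality.
-/

namespace Vale.Agent.Lib.P322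

open Finset Real

variable {ι κ : Type} [Fintype ι] [DecidableEq ι] [Fintype κ] [DecidableEq κ]

theorem cond_le_one {ε : ℝ} (h0 : 0 ≤ ε) (h1 : ε ≤ 1) (f : (ι → Bool) → Bool) (t : Bool)
    (y : ι → Bool) : cond ε f t y ≤ 1 := by
  have h := cond_add ε f y
  have ht := cond_nonneg h0 h1 f true y
  have hf := cond_nonneg h0 h1 f false y
  cases t <;> linarith

theorem h2_jensen {Ω : Type} [Fintype Ω] (w c : Ω → ℝ) (hw : ∀ x, 0 ≤ w x) (hw1 : ∑ x, w x = 1)
    (hc0 : ∀ x, 0 ≤ c x) (hc1 : ∀ x, c x ≤ 1) :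
    ∑ x, w x * h2 (c x) ≤ h2 (∑ x, w x * c x) := by
  have hJ := Real.strictConcave_binEntropy.concaveOn.le_map_sum (t := Finset.univ) (w := w)
    (p := c) (fun x _ => hw x) hw1 (fun x _ => ⟨hc0 x, hc1 x⟩)
  simp only [smul_eq_mul] at hJ
  simp only [h2_eq]
  have hlog : (0 : ℝ) < Real.log 2 := Real.log_pos (by norm_num)
  calc ∑ x, w x * (Real.binEntropy (c x) / Real.log 2)
      = (∑ x, w x * Real.binEntropy (c x)) / Real.log 2 := by
        rw [Finset.sum_div]
        exact Finset.sum_congr rfl (fun x _ => by ring)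
    _ ≤ Real.binEntropy (∑ x, w x * c x) / Real.log 2 :=
        div_le_div_of_nonneg_right hJ hlog.le

theorem sum_swap3 {A B C : Type} [Fintype A] [Fintype B] [Fintype C] (F : A → B → C → ℝ) :
    ∑ y : B, ∑ y' : C, ∑ x : A, F x y y' = ∑ x : A, ∑ y' : C, ∑ y : B, F x y y' := by
  calc ∑ y : B, ∑ y' : C, ∑ x : A, F x y y' = ∑ y' : C, ∑ y : B, ∑ x : A, F x y y' :=
        Finset.sum_comm
    _ = ∑ y' : C, ∑ x : A, ∑ y : B, F x y y' :=
        Finset.sum_congr rfl (fun y' _ => Finset.sum_comm)
    _ = ∑ x : A, ∑ y' : C, ∑ y : B, F x y y' := Finset.sum_comm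

theorem joint_mix (ε : ℝ) (g : (ι → Bool) → (κ → Bool) → Bool) (b : Bool)
    (p : (ι → Bool) × (κ → Bool)) :
    joint (chan2 ε) (fun x : (ι → Bool) × (κ → Bool) => g x.1 x.2) b p
      = (∑ x, bscN ε x p.1 * cond ε (g x) b p.2)
        / (2 ^ Fintype.card ι * 2 ^ Fintype.card κ) := by
  unfold joint chan2 cond
  rw [Fintype.sum_prod_type, Finset.sum_div, card_cube2]
  refine Finset.sum_congr rfl (fun x _ => ?_)
  rw [Finset.mul_sum, Finset.sum_div]
  refine Finset.sum_congr rfl (fun x' _ => ?_)
  split_ifs <;> simp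

/-- `balanced f`: `f` takes the values `true` and `false` equally often. -/
def Balanced (f : (κ → Bool) → Bool) : Prop :=
  (Finset.univ.filter (fun x => f x = true)).card
    = (Finset.univ.filter (fun x => f x = false)).card

theorem cond_sum_half (ε : ℝ) (f : (κ → Bool) → Bool) (hbal : Balanced f) (b : Bool) :
    ∑ y, cond ε f b y = 2 ^ Fintype.card κ / 2 := by
  have hS : ∑ y, cond ε f true y = ∑ y, cond ε f false y := by
    rw [cond_sum, cond_sum, hbal]
  have hS2 := cond_sum_add ε f
  cases b <;> linarith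

/-- **Mixture inequality**: the functional of `g` is at most the average of the functionals of
its sections, when all sections are balanced. -/
theorem mi_mix_le {ε : ℝ} (h0 : 0 ≤ ε) (h1 : ε ≤ 1) (g : (ι → Bool) → (κ → Bool) → Bool)
    (hbal : ∀ x, Balanced (g x)) :
    mutualInfo (joint (chan2 ε) (fun x : (ι → Bool) × (κ → Bool) => g x.1 x.2))
      ≤ (∑ x, mutualInfo (joint (bscN ε) (g x))) / 2 ^ Fintype.card ι := by
  have hC1 : (0 : ℝ) < 2 ^ Fintype.card ι := by positivity
  have hC2 : (0 : ℝ) < 2 ^ Fintype.card κ := by positivity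
  have hCpos : (0 : ℝ) < 2 ^ Fintype.card ι * 2 ^ Fintype.card κ := by positivity
  have hform : mutualInfo (joint (chan2 ε) (fun x : (ι → Bool) × (κ → Bool) => g x.1 x.2))
      = ∑ p : (ι → Bool) × (κ → Bool),
        (1 - h2 (∑ x, bscN ε x p.1 * cond ε (g x) true p.2))
          / (2 ^ Fintype.card ι * 2 ^ Fintype.card κ) := by
    refine mutualInfo_of_form _ _ _ hCpos (fun p => joint_mix ε g true p) (fun p => ?_)
      (fun b => ?_)
    · rw [joint_mix]
      congr 1
      rw [← bscN_sum ε p.1, ← Finset.sum_sub_distrib]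
      refine Finset.sum_congr rfl (fun x _ => ?_)
      have := cond_add ε (g x) p.2
      have hc : cond ε (g x) false p.2 = 1 - cond ε (g x) true p.2 := by linarith
      rw [hc]; ring
    · simp only [joint_mix]
      rw [← Finset.sum_div, Fintype.sum_prod_type]
      rw [sum_swap3 (fun x y y' => bscN ε x y * cond ε (g x) b y')]
      simp only [← Finset.sum_mul, bscN_sum', one_mul, cond_sum_half ε _ (hbal _) b]
      rw [Finset.sum_const, Finset.card_univ, Fintype.card_fun, Fintype.card_bool, nsmul_eq_mul]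
      push_cast
      field_simp
  have hsec : ∀ x, mutualInfo (joint (bscN ε) (g x))
      = ∑ y', (1 - h2 (cond ε (g x) true y')) / 2 ^ Fintype.card κ :=
    fun x => mi_single (g x) (hbal x)
  rw [hform, Fintype.sum_prod_type]
  simp only [hsec]
  calc ∑ y : ι → Bool, ∑ y' : κ → Bool,
        (1 - h2 (∑ x, bscN ε x y * cond ε (g x) true y'))
          / (2 ^ Fintype.card ι * 2 ^ Fintype.card κ)
      ≤ ∑ y : ι → Bool, ∑ y' : κ → Bool,
        (∑ x, bscN ε x y * (1 - h2 (cond ε (g x) true y')))
          / (2 ^ Fintype.card ι * 2 ^ Fintype.card κ) := by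
        refine Finset.sum_le_sum (fun y _ => Finset.sum_le_sum (fun y' _ => ?_))
        have hJ := h2_jensen (fun x => bscN ε x y) (fun x => cond ε (g x) true y')
          (fun x => bscN_nonneg h0 h1 x y) (bscN_sum ε y)
          (fun x => cond_nonneg h0 h1 (g x) true y') (fun x => cond_le_one h0 h1 (g x) true y')
        have hexp : ∑ x, bscN ε x y * (1 - h2 (cond ε (g x) true y'))
            = 1 - ∑ x, bscN ε x y * h2 (cond ε (g x) true y') := by
          simp only [mul_sub, mul_one, Finset.sum_sub_distrib, bscN_sum]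
        rw [hexp]
        exact div_le_div_of_nonneg_right (by linarith) hCpos.le
    _ = (∑ x : ι → Bool, ∑ y' : κ → Bool,
          (1 - h2 (cond ε (g x) true y')) / 2 ^ Fintype.card κ) / 2 ^ Fintype.card ι := by
        simp only [Finset.sum_div]
        rw [sum_swap3 (fun x y y' => bscN ε x y * (1 - h2 (cond ε (g x) true y'))
          / (2 ^ Fintype.card ι * 2 ^ Fintype.card κ))]
        refine Finset.sum_congr rfl (fun x _ => ?_)
        refine Finset.sum_congr rfl (fun y' _ => ?_)
        rw [← Finset.sum_div, ← Finset.sum_mul, bscN_sum', one_mul]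
        field_simp

/-- a function that is odd in one coordinate is balanced. -/
theorem balanced_of_odd (f : (κ → Bool) → Bool) (k : κ)
    (hf : ∀ x, f (Function.update x k (!x k)) = !f x) : Balanced f := by
  unfold Balanced
  have hinv : ∀ x : κ → Bool,
      Function.update (Function.update x k (!x k)) k (!(Function.update x k (!x k)) k) = x := by
    intro x
    simp
  refine Finset.card_nbij' (fun x => Function.update x k (!x k))
    (fun x => Function.update x k (!x k)) ?_ ?_ ?_ ?_
  · intro x hx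
    simp only [Finset.coe_filter, Finset.mem_univ, true_and, Set.mem_ofPred_eq] at hx ⊢
    rw [hf, hx]; rfl
  · intro x hx
    simp only [Finset.coe_filter, Finset.mem_univ, true_and, Set.mem_ofPred_eq] at hx ⊢
    rw [hf, hx]; rfl
  · intro x _; exact hinv x
  · intro x _; exact hinv x

/-- **Sections that are odd in a coordinate** (product form). -/
theorem ck_sections_prod {ε : ℝ} (h0 : 0 ≤ ε) (h1 : ε ≤ 1)
    (g : (ι → Bool) → (κ → Bool) → Bool)
    (hg : ∀ x, ∃ k : κ, ∀ x', g x (Function.update x' k (!x' k)) = !g x x') :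
    mutualInfo (joint (chan2 ε) (fun x : (ι → Bool) × (κ → Bool) => g x.1 x.2)) ≤ 1 - h2 ε := by
  have hbal : ∀ x, Balanced (g x) := by
    intro x
    obtain ⟨k, hk⟩ := hg x
    exact balanced_of_odd (g x) k hk
  have hsec : ∀ x, mutualInfo (joint (bscN ε) (g x)) ≤ 1 - h2 ε := by
    intro x
    obtain ⟨k, hk⟩ := hg x
    exact ck_coord h0 h1 k (g x) hk
  have hC1 : (0 : ℝ) < 2 ^ Fintype.card ι := by positivity
  refine (mi_mix_le h0 h1 g hbal).trans ?_
  rw [div_le_iff₀ hC1]
  calc ∑ x, mutualInfo (joint (bscN ε) (g x)) ≤ ∑ _x : ι → Bool, (1 - h2 ε) :=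
        Finset.sum_le_sum (fun x _ => hsec x)
    _ = (1 - h2 ε) * 2 ^ Fintype.card ι := by
        rw [Finset.sum_const, Finset.card_univ, Fintype.card_fun, Fintype.card_bool,
          nsmul_eq_mul]
        push_cast
        ring

/-- the function on the cube `ι ⊕ κ → Bool` given by a function of the two blocks. -/
def onSum (g : (ι → Bool) → (κ → Bool) → Bool) (z : ι ⊕ κ → Bool) : Bool :=
  g (fun i => z (Sum.inl i)) (fun k => z (Sum.inr k))

theorem mi_onSum (ε : ℝ) (g : (ι → Bool) → (κ → Bool) → Bool) :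
    mutualInfo (joint (bscN ε) (onSum g))
      = mutualInfo (joint (chan2 ε) (fun x : (ι → Bool) × (κ → Bool) => g x.1 x.2)) := by
  set e := Equiv.sumArrowEquivProdArrow ι κ Bool with he
  have hW : ∀ x y : ι ⊕ κ → Bool, bscN ε x y = chan2 ε (e x) (e y) := by
    intro x y
    unfold bscN chan2
    rw [Fintype.prod_sum_type]
    rfl
  have hg : ∀ x : ι ⊕ κ → Bool, onSum g x
      = (fun x : (ι → Bool) × (κ → Bool) => g x.1 x.2) (e x) := by
    intro x; rfl
  have hJ : joint (bscN ε) (onSum g)
      = fun b y => joint (chan2 ε) (fun x : (ι → Bool) × (κ → Bool) => g x.1 x.2) b (e y) := by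
    funext b y
    exact joint_equiv e (bscN ε) (chan2 ε) _ _ hW hg b y
  rw [hJ, mutualInfo_equiv e]

/-- **Mixture inequality on one cube.** -/
theorem mi_mix_sum_le {ε : ℝ} (h0 : 0 ≤ ε) (h1 : ε ≤ 1) (g : (ι → Bool) → (κ → Bool) → Bool)
    (hbal : ∀ x, Balanced (g x)) :
    mutualInfo (joint (bscN ε) (onSum g))
      ≤ (∑ x, mutualInfo (joint (bscN ε) (g x))) / 2 ^ Fintype.card ι := by
  rw [mi_onSum]
  exact mi_mix_le h0 h1 g hbal

/-- **Sections that are odd in a coordinate, on one cube.** -/
theorem ck_sections {ε : ℝ} (h0 : 0 ≤ ε) (h1 : ε ≤ 1) (g : (ι → Bool) → (κ → Bool) → Bool)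
    (hg : ∀ x, ∃ k : κ, ∀ x', g x (Function.update x' k (!x' k)) = !g x x') :
    mutualInfo (joint (bscN ε) (onSum g)) ≤ 1 - h2 ε := by
  rw [mi_onSum]
  exact ck_sections_prod h0 h1 g hg

end Vale.Agent.Lib.P322
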