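import Vale.Agent.Lib.P322.Mix

/-!
# P322: the class generated from odd-coordinate functions by gluing sections

`Glued` is the smallest class of Boolean functions on finite cubes `ι → Bool` that

* contains every function that is odd in some coordinate (flipping that bit always changes the
  value);
* contains a function on the cube `ι ⊕ κ → Bool` as soon as all its sections (fix the bits of
  the block `ι`) are in the class;
* is closed under relabelling the coordinates by a bijection.

Every function in `Glued` is balanced and satisfies the Courtade–Kumar inequality.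
-/

namespace Vale.Agent.Lib.P322

open Finset Real

/-- The class generated from the functions that are odd in one coordinate by gluing sections
and relabelling coordinates. -/
inductive Glued : ∀ {ι : Type} [Fintype ι] [DecidableEq ι], ((ι → Bool) → Bool) → Prop
  | odd {ι : Type} [Fintype ι] [DecidableEq ι] (i : ι) (g : (ι → Bool) → Bool)
      (hg : ∀ x, g (Function.update x i (!x i)) = !g x) : Glued g
  | glue {ι κ : Type} [Fintype ι] [DecidableEq ι] [Fintype κ] [DecidableEq κ]
      (g : (ι → Bool) → (κ → Bool) → Bool) (h : ∀ x, Glued (g x)) :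
      Glued (fun z : ι ⊕ κ → Bool => g (fun i => z (Sum.inl i)) (fun k => z (Sum.inr k)))
  | relabel {ι ι' : Type} [Fintype ι] [DecidableEq ι] [Fintype ι'] [DecidableEq ι'] (e : ι ≃ ι')
      (g : (ι → Bool) → Bool) (h : Glued g) :
      Glued (fun z : ι' → Bool => g (fun i => z (e i)))

variable {ι κ : Type} [Fintype ι] [DecidableEq ι] [Fintype κ] [DecidableEq κ]

theorem balanced_iff (f : (κ → Bool) → Bool) :
    Balanced f ↔ ∑ x, (if f x = true then 1 else 0 : ℕ) = ∑ x, (if f x = false then 1 else 0 : ℕ) := by
  unfold Balanced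
  rw [Finset.card_filter, Finset.card_filter]

theorem balanced_onSum (g : (ι → Bool) → (κ → Bool) → Bool) (hbal : ∀ x, Balanced (g x)) :
    Balanced (onSum g) := by
  rw [balanced_iff]
  have key : ∀ b : Bool, ∑ z : ι ⊕ κ → Bool, (if onSum g z = b then 1 else 0 : ℕ)
      = ∑ x : ι → Bool, ∑ x' : κ → Bool, (if g x x' = b then 1 else 0 : ℕ) := by
    intro b
    rw [← Fintype.sum_prod_type (fun p : (ι → Bool) × (κ → Bool) => (if g p.1 p.2 = b then 1 else 0 : ℕ))]
    exact (Equiv.sum_comp (Equiv.sumArrowEquivProdArrow ι κ Bool)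
      (fun p : (ι → Bool) × (κ → Bool) => (if g p.1 p.2 = b then 1 else 0 : ℕ)))
  rw [key true, key false]
  exact Finset.sum_congr rfl (fun x _ => (balanced_iff (g x)).1 (hbal x))

/-- the bijection of cubes induced by a relabelling of the coordinates. -/
def cubeEquiv {ι ι' : Type} (e : ι ≃ ι') : (ι' → Bool) ≃ (ι → Bool) where
  toFun z := fun i => z (e i)
  invFun w := fun i' => w (e.symm i')
  left_inv z := by funext i'; simp
  right_inv w := by funext i; simp

theorem balanced_relabel {ι ι' : Type} [Fintype ι] [DecidableEq ι] [Fintype ι'] [DecidableEq ι']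
    (e : ι ≃ ι') (g : (ι → Bool) → Bool) (hbal : Balanced g) :
    Balanced (fun z : ι' → Bool => g (fun i => z (e i))) := by
  rw [balanced_iff] at hbal ⊢
  have key : ∀ b : Bool, ∑ z : ι' → Bool, (if g (fun i => z (e i)) = b then 1 else 0 : ℕ)
      = ∑ w : ι → Bool, (if g w = b then 1 else 0 : ℕ) := by
    intro b
    exact Equiv.sum_comp (cubeEquiv e) (fun w : ι → Bool => (if g w = b then 1 else 0 : ℕ))
  rw [key true, key false]
  exact hbal

theorem mi_relabel {ι ι' : Type} [Fintype ι] [DecidableEq ι] [Fintype ι'] [DecidableEq ι']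
    (ε : ℝ) (e : ι ≃ ι') (g : (ι → Bool) → Bool) :
    mutualInfo (joint (bscN ε) (fun z : ι' → Bool => g (fun i => z (e i))))
      = mutualInfo (joint (bscN ε) g) := by
  have hW : ∀ x y : ι' → Bool, bscN ε x y = bscN ε (cubeEquiv e x) (cubeEquiv e y) := by
    intro x y
    unfold bscN
    exact (Equiv.prod_comp e (fun i' => bsc ε (x i') (y i'))).symm
  have hJ : joint (bscN ε) (fun z : ι' → Bool => g (fun i => z (e i)))
      = fun b y => joint (bscN ε) g b (cubeEquiv e y) := by
    funext b y
    exact joint_equiv (cubeEquiv e) (bscN ε) (bscN ε) _ g hW (fun x => rfl) b y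
  rw [hJ, mutualInfo_equiv (cubeEquiv e)]

/-- **Every function of the class `Glued` is balanced and satisfies the Courtade–Kumar
inequality.** -/
theorem glued_ck {ε : ℝ} (h0 : 0 ≤ ε) (h1 : ε ≤ 1) {ι : Type} [Fintype ι] [DecidableEq ι]
    (g : (ι → Bool) → Bool) (hg : Glued g) :
    Balanced g ∧ mutualInfo (joint (bscN ε) g) ≤ 1 - h2 ε := by
  induction hg with
  | odd i g hg => exact ⟨balanced_of_odd g i hg, ck_coord h0 h1 i g hg⟩
  | @glue ι κ _ _ _ _ g _ ih =>
    have hbal : ∀ x, Balanced (g x) := fun x => (ih x).1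
    refine ⟨balanced_onSum g hbal, ?_⟩
    have hC1 : (0 : ℝ) < 2 ^ Fintype.card ι := by positivity
    refine (mi_mix_sum_le h0 h1 g hbal).trans ?_
    rw [div_le_iff₀ hC1]
    calc ∑ x, mutualInfo (joint (bscN ε) (g x)) ≤ ∑ _x : ι → Bool, (1 - h2 ε) :=
          Finset.sum_le_sum (fun x _ => (ih x).2)
      _ = (1 - h2 ε) * 2 ^ Fintype.card ι := by
          rw [Finset.sum_const, Finset.card_univ, Fintype.card_fun, Fintype.card_bool,
            nsmul_eq_mul]
          push_cast
          ring
  | relabel e g _ ih =>
    exact ⟨balanced_relabel e g ih.1, by rw [mi_relabel]; exact ih.2⟩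

end Vale.Agent.Lib.P322
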