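import Vale.Agent.Lib.P322.Defs

/-!
# P322: functions `z XOR f(x)` satisfy the Courtade–Kumar inequality
-/

namespace Vale.Agent.Lib.P322

open Finset Real

variable {ι : Type} [Fintype ι] [DecidableEq ι]

theorem bsc_nonneg {ε : ℝ} (h0 : 0 ≤ ε) (h1 : ε ≤ 1) (z w : Bool) : 0 ≤ bsc ε z w := by
  unfold bsc; split_ifs <;> linarith

theorem bsc_ge (ε : ℝ) (z w : Bool) : min ε (1 - ε) ≤ bsc ε z w := by
  unfold bsc; split_ifs
  · exact min_le_right _ _
  · exact min_le_left _ _

theorem bsc_le (ε : ℝ) (z w : Bool) : bsc ε z w ≤ max ε (1 - ε) := by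
  unfold bsc; split_ifs
  · exact le_max_right _ _
  · exact le_max_left _ _

theorem bscN_nonneg {ε : ℝ} (h0 : 0 ≤ ε) (h1 : ε ≤ 1) (x y : ι → Bool) : 0 ≤ bscN ε x y :=
  Finset.prod_nonneg (fun i _ => bsc_nonneg h0 h1 _ _)

theorem bsc_sum (ε : ℝ) (w : Bool) : ∑ z : Bool, bsc ε z w = 1 := by
  rw [Fintype.sum_bool]; unfold bsc; cases w <;> simp

theorem bscN_sum (ε : ℝ) (y : ι → Bool) : ∑ x, bscN ε x y = 1 := by
  classical
  unfold bscN
  rw [← Fintype.prod_sum (fun i (b : Bool) => bsc ε b (y i))]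
  exact Finset.prod_eq_one (fun i _ => bsc_sum ε (y i))

/-- `qq ε f b w y`: the conditional probability, given the outputs `(w, y)`, that
`z XOR f x = b`. -/
noncomputable def qq (ε : ℝ) (f : (ι → Bool) → Bool) (b w : Bool) (y : ι → Bool) : ℝ :=
  ∑ x, bsc ε (xor b (f x)) w * bscN ε x y

theorem qq_add (ε : ℝ) (f : (ι → Bool) → Bool) (b w : Bool) (y : ι → Bool) :
    qq ε f b w y + qq ε f (!b) w y = 1 := by
  unfold qq
  rw [← Finset.sum_add_distrib, ← bscN_sum ε y]
  refine Finset.sum_congr rfl (fun x _ => ?_)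
  have h : bsc ε (xor b (f x)) w + bsc ε (xor (!b) (f x)) w = 1 := by
    unfold bsc; cases b <;> cases f x <;> cases w <;> simp
  rw [← add_mul, h, one_mul]

theorem qq_flip (ε : ℝ) (f : (ι → Bool) → Bool) (b w : Bool) (y : ι → Bool) :
    qq ε f b (!w) y = qq ε f (!b) w y := by
  unfold qq
  refine Finset.sum_congr rfl (fun x _ => ?_)
  congr 1
  unfold bsc; cases b <;> cases f x <;> cases w <;> simp

theorem qq_ge {ε : ℝ} (h0 : 0 ≤ ε) (h1 : ε ≤ 1) (f : (ι → Bool) → Bool) (b w : Bool)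
    (y : ι → Bool) : min ε (1 - ε) ≤ qq ε f b w y := by
  unfold qq
  calc min ε (1 - ε) = ∑ x, min ε (1 - ε) * bscN ε x y := by
        rw [← Finset.mul_sum, bscN_sum, mul_one]
    _ ≤ ∑ x, bsc ε (xor b (f x)) w * bscN ε x y :=
        Finset.sum_le_sum (fun x _ =>
          mul_le_mul_of_nonneg_right (bsc_ge ε _ _) (bscN_nonneg h0 h1 x y))

theorem qq_le {ε : ℝ} (h0 : 0 ≤ ε) (h1 : ε ≤ 1) (f : (ι → Bool) → Bool) (b w : Bool)
    (y : ι → Bool) : qq ε f b w y ≤ max ε (1 - ε) := by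
  unfold qq
  calc ∑ x, bsc ε (xor b (f x)) w * bscN ε x y ≤ ∑ x, max ε (1 - ε) * bscN ε x y :=
        Finset.sum_le_sum (fun x _ =>
          mul_le_mul_of_nonneg_right (bsc_le ε _ _) (bscN_nonneg h0 h1 x y))
    _ = max ε (1 - ε) := by rw [← Finset.mul_sum, bscN_sum, mul_one]

/-- the channel on `Bool × (ι → Bool)`: independent binary symmetric channels on all bits. -/
noncomputable def chan (ε : ℝ) (x y : Bool × (ι → Bool)) : ℝ := bsc ε x.1 y.1 * bscN ε x.2 y.2

theorem card_cube : (Fintype.card (Bool × (ι → Bool)) : ℝ) = 2 * 2 ^ Fintype.card ι := by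
  classical
  simp [Fintype.card_prod, Fintype.card_bool, Fintype.card_pi]

theorem joint_eq (ε : ℝ) (f : (ι → Bool) → Bool) (b w : Bool) (y : ι → Bool) :
    joint (chan ε) (fun x : Bool × (ι → Bool) => xor x.1 (f x.2)) b (w, y)
      = qq ε f b w y / (2 * 2 ^ Fintype.card ι) := by
  unfold joint qq chan
  rw [Fintype.sum_prod_type, Fintype.sum_bool, ← Finset.sum_add_distrib, Finset.sum_div,
    card_cube]
  refine Finset.sum_congr rfl (fun x _ => ?_)
  cases b <;> cases hf : f x <;> simp [hf]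

/-- the Boolean function `(z, x) ↦ z XOR f x` on the cube `Bool × (ι → Bool)`. -/
def xorFun (f : (ι → Bool) → Bool) (x : Bool × (ι → Bool)) : Bool := xor x.1 (f x.2)

theorem joint_eq' (ε : ℝ) (f : (ι → Bool) → Bool) (b : Bool) (p : Bool × (ι → Bool)) :
    joint (chan ε) (xorFun f) b p = qq ε f b p.1 p.2 / (2 * 2 ^ Fintype.card ι) := by
  obtain ⟨w, y⟩ := p
  exact joint_eq ε f b w y

theorem col_sum (ε : ℝ) (f : (ι → Bool) → Bool) (p : Bool × (ι → Bool)) :
    ∑ b', joint (chan ε) (xorFun f) b' p = 1 / (2 * 2 ^ Fintype.card ι) := by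
  rw [Fintype.sum_bool, joint_eq', joint_eq', ← add_div]
  have h := qq_add ε f true p.1 p.2
  simp only [Bool.not_true] at h
  rw [h]

theorem row_sum (ε : ℝ) (f : (ι → Bool) → Bool) (b : Bool) :
    ∑ p, joint (chan ε) (xorFun f) b p = 1 / 2 := by
  rw [Fintype.sum_prod_type, Fintype.sum_bool, ← Finset.sum_add_distrib]
  have h : ∀ y : ι → Bool, joint (chan ε) (xorFun f) b (true, y)
      + joint (chan ε) (xorFun f) b (false, y) = 1 / (2 * 2 ^ Fintype.card ι) := by
    intro y
    rw [joint_eq', joint_eq', ← add_div]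
    have h1 := qq_flip ε f b true y
    simp only [Bool.not_true] at h1
    show (qq ε f b true y + qq ε f b false y) / _ = _
    rw [h1, qq_add]
  rw [Finset.sum_congr rfl (fun y _ => h y), Finset.sum_const, Finset.card_univ, Fintype.card_fun,
    Fintype.card_bool, nsmul_eq_mul]
  push_cast
  field_simp

theorem logb_two_mul (Q : ℝ) :
    Q * Real.logb 2 (2 * Q) + (1 - Q) * Real.logb 2 (2 * (1 - Q)) = 1 - h2 Q := by
  unfold h2
  by_cases hQ0 : Q = 0
  · subst hQ0; simp
  by_cases hQ1 : Q = 1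
  · subst hQ1; simp
  have h1Q : (1 - Q) ≠ 0 := fun h => hQ1 (by linarith)
  rw [Real.logb_mul (by norm_num) hQ0, Real.logb_mul (by norm_num) h1Q,
    Real.logb_self_eq_one (by norm_num)]
  ring

theorem h2_eq (p : ℝ) : h2 p = Real.binEntropy p / Real.log 2 := by
  simp only [h2, Real.logb, Real.binEntropy, Real.log_inv]
  ring

theorem binEntropy_mono {ε Q : ℝ} (h0 : 0 ≤ ε) (h1 : ε ≤ 1) (hQ1 : min ε (1 - ε) ≤ Q)
    (hQ2 : Q ≤ max ε (1 - ε)) : Real.binEntropy ε ≤ Real.binEntropy Q := by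
  have hm : Real.binEntropy (min ε (1 - ε)) = Real.binEntropy ε := by
    rcases min_choice ε (1 - ε) with h | h
    · rw [h]
    · rw [h, Real.binEntropy_one_sub]
  have hm0 : 0 ≤ min ε (1 - ε) := le_min h0 (by linarith)
  have hmh : min ε (1 - ε) ≤ 2⁻¹ := by
    rcases le_total ε (1 - ε) with h | h
    · rw [min_eq_left h]; linarith
    · rw [min_eq_right h]; linarith
  have hmax : max ε (1 - ε) = 1 - min ε (1 - ε) := by
    rcases le_total ε (1 - ε) with h | h
    · rw [min_eq_left h, max_eq_right h]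
    · rw [min_eq_right h, max_eq_left h]; ring
  rw [← hm]
  rcases le_total Q 2⁻¹ with hQ | hQ
  · exact Real.binEntropy_strictMonoOn.monotoneOn ⟨hm0, hmh⟩ ⟨hm0.trans hQ1, hQ⟩ hQ1
  · rw [← Real.binEntropy_one_sub Q]
    refine Real.binEntropy_strictMonoOn.monotoneOn ⟨hm0, hmh⟩ ⟨?_, ?_⟩ ?_
    · linarith
    · linarith
    · linarith

theorem h2_mono {ε Q : ℝ} (h0 : 0 ≤ ε) (h1 : ε ≤ 1) (hQ1 : min ε (1 - ε) ≤ Q)
    (hQ2 : Q ≤ max ε (1 - ε)) : h2 ε ≤ h2 Q := by
  rw [h2_eq, h2_eq]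
  exact div_le_div_of_nonneg_right (binEntropy_mono h0 h1 hQ1 hQ2)
    (Real.log_nonneg (by norm_num))

theorem mi_eq (ε : ℝ) (f : (ι → Bool) → Bool) :
    mutualInfo (joint (chan ε) (xorFun f))
      = ∑ y : ι → Bool, (1 - h2 (qq ε f true true y)) / 2 ^ Fintype.card ι := by
  unfold mutualInfo
  simp only [row_sum, col_sum]
  simp only [joint_eq']
  rw [Fintype.sum_bool]
  simp only [Fintype.sum_prod_type, Fintype.sum_bool]
  simp only [← Finset.sum_add_distrib]
  refine Finset.sum_congr rfl (fun y _ => ?_)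
  have hft : qq ε f false true y = 1 - qq ε f true true y := by
    have h := qq_add ε f true true y
    simp only [Bool.not_true] at h
    linarith
  have htf : qq ε f true false y = 1 - qq ε f true true y := by
    have h := qq_flip ε f true true y
    simp only [Bool.not_true] at h
    rw [h, hft]
  have hff : qq ε f false false y = qq ε f true true y := by
    have h := qq_flip ε f false true y
    simp only [Bool.not_true, Bool.not_false] at h
    exact h
  rw [hft, htf, hff]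
  have hC : (2 : ℝ) ^ Fintype.card ι ≠ 0 := by positivity
  have e1 : ∀ q : ℝ, q / (2 * 2 ^ Fintype.card ι) / (1 / 2 * (1 / (2 * 2 ^ Fintype.card ι)))
      = 2 * q := by
    intro q; field_simp
  rw [e1, e1]
  have hL := logb_two_mul (qq ε f true true y)
  generalize Real.logb 2 (2 * qq ε f true true y) = A at hL ⊢
  generalize Real.logb 2 (2 * (1 - qq ε f true true y)) = B at hL ⊢
  generalize qq ε f true true y = Q at hL ⊢
  rw [← hL]
  field_simp
  ring

/-- **The Courtade–Kumar inequality for `z XOR f x`.** -/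
theorem ck_xor {ε : ℝ} (h0 : 0 ≤ ε) (h1 : ε ≤ 1) (f : (ι → Bool) → Bool) :
    mutualInfo (joint (chan ε) (xorFun f)) ≤ 1 - h2 ε := by
  rw [mi_eq]
  have hC : (0 : ℝ) < 2 ^ Fintype.card ι := by positivity
  calc ∑ y : ι → Bool, (1 - h2 (qq ε f true true y)) / 2 ^ Fintype.card ι
      ≤ ∑ _y : ι → Bool, (1 - h2 ε) / 2 ^ Fintype.card ι := by
        refine Finset.sum_le_sum (fun y _ => ?_)
        have := h2_mono h0 h1 (qq_ge h0 h1 f true true y) (qq_le h0 h1 f true true y)
        exact div_le_div_of_nonneg_right (by linarith) hC.le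
    _ = 1 - h2 ε := by
        rw [Finset.sum_const, Finset.card_univ, Fintype.card_fun, Fintype.card_bool,
          nsmul_eq_mul]
        push_cast
        field_simp

end Vale.Agent.Lib.P322
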