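import Vale.Agent.Lib.P322.Coord

/-!
# P322: an XOR lemma for the Courtade–Kumar functional

If `f₂` is balanced, then `I(f₁(X) XOR f₂(X'); (Y, Y')) ≤ I(f₂(X'); Y')` for every `f₁` on a
disjoint set of variables.
-/

namespace Vale.Agent.Lib.P322

open Finset Real

variable {ι κ : Type} [Fintype ι] [DecidableEq ι] [Fintype κ] [DecidableEq κ]

theorem bsc_symm (ε : ℝ) (z w : Bool) : bsc ε z w = bsc ε w z := by
  unfold bsc; cases z <;> cases w <;> simp

theorem bscN_symm (ε : ℝ) (x y : ι → Bool) : bscN ε x y = bscN ε y x := by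
  unfold bscN; exact Finset.prod_congr rfl (fun i _ => bsc_symm ε _ _)

theorem bscN_sum' (ε : ℝ) (x : ι → Bool) : ∑ y, bscN ε x y = 1 := by
  rw [← bscN_sum ε x]
  exact Finset.sum_congr rfl (fun y _ => bscN_symm ε x y)

/-- `cond ε f t y`: the conditional probability that `f X = t` given `Y = y`. -/
noncomputable def cond (ε : ℝ) (f : (ι → Bool) → Bool) (t : Bool) (y : ι → Bool) : ℝ :=
  ∑ x, if f x = t then bscN ε x y else 0

theorem cond_add (ε : ℝ) (f : (ι → Bool) → Bool) (y : ι → Bool) :
    cond ε f true y + cond ε f false y = 1 := by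
  unfold cond
  rw [← Finset.sum_add_distrib, ← bscN_sum ε y]
  refine Finset.sum_congr rfl (fun x _ => ?_)
  cases f x <;> simp

theorem cond_nonneg {ε : ℝ} (h0 : 0 ≤ ε) (h1 : ε ≤ 1) (f : (ι → Bool) → Bool) (t : Bool)
    (y : ι → Bool) : 0 ≤ cond ε f t y := by
  unfold cond
  refine Finset.sum_nonneg (fun x _ => ?_)
  split_ifs
  · exact bscN_nonneg h0 h1 x y
  · exact le_rfl

theorem cond_sum (ε : ℝ) (f : (ι → Bool) → Bool) (t : Bool) :
    ∑ y, cond ε f t y = ((Finset.univ.filter (fun x => f x = t)).card : ℝ) := by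
  unfold cond
  rw [Finset.sum_comm]
  have h : ∀ x : ι → Bool, ∑ y, (if f x = t then bscN ε x y else 0)
      = if f x = t then (1 : ℝ) else 0 := by
    intro x
    split_ifs
    · exact bscN_sum' ε x
    · simp
  simp only [h]
  rw [Finset.sum_boole]

theorem cond_sum_add (ε : ℝ) (f : (ι → Bool) → Bool) :
    ∑ y, cond ε f true y + ∑ y, cond ε f false y = 2 ^ Fintype.card ι := by
  rw [← Finset.sum_add_distrib]
  simp only [cond_add]
  rw [Finset.sum_const, Finset.card_univ, Fintype.card_fun, Fintype.card_bool, nsmul_eq_mul]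
  push_cast
  ring

theorem joint_single (ε : ℝ) (f : (ι → Bool) → Bool) (b : Bool) (y : ι → Bool) :
    joint (bscN ε) f b y = cond ε f b y / 2 ^ Fintype.card ι := by
  unfold joint cond
  rw [Finset.sum_div]
  refine Finset.sum_congr rfl (fun x _ => ?_)
  rw [Fintype.card_fun, Fintype.card_bool]
  push_cast
  split_ifs <;> simp

/-- the product channel on a product of two cubes. -/
noncomputable def chan2 (ε : ℝ) (x y : (ι → Bool) × (κ → Bool)) : ℝ :=
  bscN ε x.1 y.1 * bscN ε x.2 y.2

/-- `(x, x') ↦ f₁ x XOR f₂ x'`. -/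
def xor2 (f₁ : (ι → Bool) → Bool) (f₂ : (κ → Bool) → Bool) (x : (ι → Bool) × (κ → Bool)) :
    Bool := xor (f₁ x.1) (f₂ x.2)

theorem card_cube2 : (Fintype.card ((ι → Bool) × (κ → Bool)) : ℝ)
    = 2 ^ Fintype.card ι * 2 ^ Fintype.card κ := by
  simp [Fintype.card_prod, Fintype.card_bool, Fintype.card_fun]

theorem joint_xor2 (ε : ℝ) (f₁ : (ι → Bool) → Bool) (f₂ : (κ → Bool) → Bool) (b : Bool)
    (p : (ι → Bool) × (κ → Bool)) :
    joint (chan2 ε) (xor2 f₁ f₂) b p
      = (cond ε f₁ true p.1 * cond ε f₂ (!b) p.2 + cond ε f₁ false p.1 * cond ε f₂ b p.2)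
        / (2 ^ Fintype.card ι * 2 ^ Fintype.card κ) := by
  unfold joint chan2 xor2 cond
  rw [Fintype.sum_prod_type, Finset.sum_mul_sum, Finset.sum_mul_sum, ← Finset.sum_add_distrib,
    Finset.sum_div, card_cube2]
  refine Finset.sum_congr rfl (fun x _ => ?_)
  rw [← Finset.sum_add_distrib, Finset.sum_div]
  refine Finset.sum_congr rfl (fun x' _ => ?_)
  cases b <;> cases h1 : f₁ x <;> cases h2 : f₂ x' <;> simp [h1, h2]

theorem mutualInfo_of_form {Ω : Type} [Fintype Ω] (J : Bool → Ω → ℝ) (Q : Ω → ℝ) (C : ℝ)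
    (hC : 0 < C) (ht : ∀ y, J true y = Q y / C) (hf : ∀ y, J false y = (1 - Q y) / C)
    (hrow : ∀ b, ∑ y, J b y = 1 / 2) :
    mutualInfo J = ∑ y, (1 - h2 (Q y)) / C := by
  unfold mutualInfo
  have hcol : ∀ y, ∑ b', J b' y = 1 / C := by
    intro y
    rw [Fintype.sum_bool, ht, hf]
    field_simp
    ring
  simp only [hrow, hcol]
  rw [Fintype.sum_bool, ← Finset.sum_add_distrib]
  refine Finset.sum_congr rfl (fun y _ => ?_)
  rw [ht, hf]
  have e1 : ∀ q : ℝ, q / C / (1 / 2 * (1 / C)) = 2 * q := by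
    intro q; field_simp
  rw [e1, e1]
  have hL := logb_two_mul (Q y)
  generalize Real.logb 2 (2 * Q y) = A at hL ⊢
  generalize Real.logb 2 (2 * (1 - Q y)) = B at hL ⊢
  rw [← hL]
  field_simp

/-- the mutual information of a balanced function. -/
theorem mi_single {ε : ℝ} (f : (κ → Bool) → Bool)
    (hbal : (Finset.univ.filter (fun x => f x = true)).card
      = (Finset.univ.filter (fun x => f x = false)).card) :
    mutualInfo (joint (bscN ε) f)
      = ∑ y, (1 - h2 (cond ε f true y)) / 2 ^ Fintype.card κ := by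
  have hS : ∑ y, cond ε f true y = ∑ y, cond ε f false y := by
    rw [cond_sum, cond_sum, hbal]
  have hS2 := cond_sum_add ε f
  refine mutualInfo_of_form _ _ _ (by positivity) (fun y => joint_single ε f true y)
    (fun y => ?_) (fun b => ?_)
  · rw [joint_single]
    have := cond_add ε f y
    congr 1; linarith
  · simp only [joint_single]
    rw [← Finset.sum_div]
    have hb : ∑ y, cond ε f b y = 2 ^ Fintype.card κ / 2 := by
      cases b <;> linarith
    rw [hb]
    field_simp

/-- **XOR lemma.** -/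
theorem mi_xor2_le {ε : ℝ} (h0 : 0 ≤ ε) (h1 : ε ≤ 1) (f₁ : (ι → Bool) → Bool)
    (f₂ : (κ → Bool) → Bool)
    (hbal : (Finset.univ.filter (fun x => f₂ x = true)).card
      = (Finset.univ.filter (fun x => f₂ x = false)).card) :
    mutualInfo (joint (chan2 ε) (xor2 f₁ f₂)) ≤ mutualInfo (joint (bscN ε) f₂) := by
  have hS : ∑ y, cond ε f₂ true y = ∑ y, cond ε f₂ false y := by
    rw [cond_sum, cond_sum, hbal]
  have hS2 := cond_sum_add ε f₂
  have hS1 := cond_sum_add ε f₁
  have hCpos : (0 : ℝ) < 2 ^ Fintype.card ι * 2 ^ Fintype.card κ := by positivity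
  have hform : mutualInfo (joint (chan2 ε) (xor2 f₁ f₂))
      = ∑ p : (ι → Bool) × (κ → Bool),
        (1 - h2 (cond ε f₁ true p.1 * cond ε f₂ false p.2
          + cond ε f₁ false p.1 * cond ε f₂ true p.2))
          / (2 ^ Fintype.card ι * 2 ^ Fintype.card κ) := by
    refine mutualInfo_of_form _ _ _ hCpos (fun p => ?_) (fun p => ?_) (fun b => ?_)
    · rw [joint_xor2]; simp
    · rw [joint_xor2]
      have ha := cond_add ε f₁ p.1
      have hc := cond_add ε f₂ p.2
      simp only [Bool.not_false]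
      congr 1
      have ha' : cond ε f₁ false p.1 = 1 - cond ε f₁ true p.1 := by linarith
      have hc' : cond ε f₂ false p.2 = 1 - cond ε f₂ true p.2 := by linarith
      rw [ha', hc']; ring
    · simp only [joint_xor2]
      rw [← Finset.sum_div, Fintype.sum_prod_type]
      simp only [Finset.sum_add_distrib, ← Finset.mul_sum]
      rw [← Finset.sum_mul, ← Finset.sum_mul]
      have hb : ∀ b' : Bool, ∑ y, cond ε f₂ b' y = 2 ^ Fintype.card κ / 2 := by
        intro b'; cases b' <;> linarith
      rw [hb, hb, ← add_mul, hS1]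
      field_simp
  rw [hform, mi_single f₂ hbal, Fintype.sum_prod_type]
  have hC1 : (0 : ℝ) < 2 ^ Fintype.card ι := by positivity
  have hC2 : (0 : ℝ) < 2 ^ Fintype.card κ := by positivity
  calc ∑ y : ι → Bool, ∑ y' : κ → Bool,
        (1 - h2 (cond ε f₁ true y * cond ε f₂ false y' + cond ε f₁ false y * cond ε f₂ true y'))
          / (2 ^ Fintype.card ι * 2 ^ Fintype.card κ)
      ≤ ∑ _y : ι → Bool, ∑ y' : κ → Bool,
        (1 - h2 (cond ε f₂ true y')) / (2 ^ Fintype.card ι * 2 ^ Fintype.card κ) := by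
        refine Finset.sum_le_sum (fun y _ => Finset.sum_le_sum (fun y' _ => ?_))
        have ha := cond_add ε f₁ y
        have hc := cond_add ε f₂ y'
        have ha0 := cond_nonneg h0 h1 f₁ true y
        have ha1 := cond_nonneg h0 h1 f₁ false y
        have hc0 := cond_nonneg h0 h1 f₂ true y'
        have hc1 := cond_nonneg h0 h1 f₂ false y'
        set a := cond ε f₁ true y
        set c := cond ε f₂ true y'
        have ha' : cond ε f₁ false y = 1 - a := by linarith
        have hc' : cond ε f₂ false y' = 1 - c := by linarith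
        rw [ha', hc']
        have hq1 : min c (1 - c) ≤ a * (1 - c) + (1 - a) * c := by
          rcases le_total c (1 - c) with h | h
          · rw [min_eq_left h]; nlinarith
          · rw [min_eq_right h]; nlinarith
        have hq2 : a * (1 - c) + (1 - a) * c ≤ max c (1 - c) := by
          rcases le_total c (1 - c) with h | h
          · rw [max_eq_right h]; nlinarith
          · rw [max_eq_left h]; nlinarith
        have := h2_mono hc0 (by linarith) hq1 hq2
        exact div_le_div_of_nonneg_right (by linarith) hCpos.le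
    _ = ∑ y' : κ → Bool, (1 - h2 (cond ε f₂ true y')) / 2 ^ Fintype.card κ := by
        rw [Finset.sum_const, Finset.card_univ, Fintype.card_fun, Fintype.card_bool,
          nsmul_eq_mul, Finset.mul_sum]
        refine Finset.sum_congr rfl (fun y' _ => ?_)
        push_cast
        field_simp

/-- **XOR lemma on one cube.** On the cube `ι ⊕ κ → Bool`, the XOR of an arbitrary function of
the `ι`-coordinates with a balanced function `f₂` of the `κ`-coordinates carries at most as much
information about the noisy input as `f₂` does. -/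
theorem mi_xor_sum_le {ε : ℝ} (h0 : 0 ≤ ε) (h1 : ε ≤ 1) (f₁ : (ι → Bool) → Bool)
    (f₂ : (κ → Bool) → Bool)
    (hbal : (Finset.univ.filter (fun x => f₂ x = true)).card
      = (Finset.univ.filter (fun x => f₂ x = false)).card) :
    mutualInfo (joint (bscN ε) (fun x : ι ⊕ κ → Bool =>
        xor (f₁ (fun i => x (Sum.inl i))) (f₂ (fun k => x (Sum.inr k)))))
      ≤ mutualInfo (joint (bscN ε) f₂) := by
  set e := Equiv.sumArrowEquivProdArrow ι κ Bool with he
  have hW : ∀ x y : ι ⊕ κ → Bool, bscN ε x y = chan2 ε (e x) (e y) := by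
    intro x y
    unfold bscN chan2
    rw [Fintype.prod_sum_type]
    rfl
  have hg : ∀ x : ι ⊕ κ → Bool,
      xor (f₁ (fun i => x (Sum.inl i))) (f₂ (fun k => x (Sum.inr k))) = xor2 f₁ f₂ (e x) := by
    intro x; rfl
  have hJ : joint (bscN ε) (fun x : ι ⊕ κ → Bool =>
        xor (f₁ (fun i => x (Sum.inl i))) (f₂ (fun k => x (Sum.inr k))))
      = fun b y => joint (chan2 ε) (xor2 f₁ f₂) b (e y) := by
    funext b y
    exact joint_equiv e (bscN ε) (chan2 ε) _ (xor2 f₁ f₂) hW hg b y
  rw [hJ, mutualInfo_equiv e]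
  exact mi_xor2_le h0 h1 f₁ f₂ hbal

end Vale.Agent.Lib.P322
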